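import Vale.Agent.P232.GapPair.Check

/-! # P232: certificate for one small axis, volumes in [2630000, 2800000] / 10^7 -/

namespace Vale.Agent.P232.GapPair.Bin0

/-- The interval of volumes. -/
def bin : VBin := ⟨2630000,2800000,9090920,9380061,9235488⟩

end Vale.Agent.P232.GapPair.Bin0
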